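import Mathlib

/-!
# P217 (Q1): definitions used in the statement of Chai's invariant ideal theorem
-/

noncomputable section

namespace Vale.Agent.P217

section FG

variable {R : Type*} [CommRing R]

/-- The formal sum `F(a, b)` of two power series (in any set of variables). -/
def fadd {σ : Type*} (F : FormalGroup R) (a b : MvPowerSeries σ R) : MvPowerSeries σ R :=
  F.toPowerSeries.subst ![a, b]

/-- The iterated formal sum `s 0 +_F s 1 +_F ... +_F s (j-1)` of one-variable series. -/
def sumSeries (F : FormalGroup R) (s : ℕ → PowerSeries R) : ℕ → PowerSeries R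
  | 0 => 0
  | j + 1 => fadd F (sumSeries F s j) (s j)

/-- The `j`-series `[j]_F(x)`. -/
def mulSeries (F : FormalGroup R) (j : ℕ) : PowerSeries R :=
  sumSeries F (fun _ => PowerSeries.X) j

/-- `w` is a homomorphism of formal group laws `F → G`: `w(0) = 0` and
`w(F(x,y)) = G(w(x), w(y))`. -/
def IsHom (F G : FormalGroup R) (w : PowerSeries R) : Prop :=
  PowerSeries.constantCoeff w = 0 ∧
    w.subst F.toPowerSeries =
      fadd G (w.subst (MvPowerSeries.X 0 : MvPowerSeries (Fin 2) R))
        (w.subst (MvPowerSeries.X 1 : MvPowerSeries (Fin 2) R))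

/-- `w` is an isomorphism of formal group laws `F → G`. -/
def IsIso (F G : FormalGroup R) (w : PowerSeries R) : Prop :=
  IsHom F G w ∧ IsUnit (PowerSeries.coeff 1 w)

end FG

/-- A formal group law over `𝔽_p` is `p`-typical: for every prime `l ≠ p` the Frobenius operator
`f_l` kills the curve `x`, i.e. `x +_Γ ζ x +_Γ ... +_Γ ζ^(l-1) x = 0` for a primitive `l`-th root
of unity `ζ`. -/
def IsPTypical (p : ℕ) [Fact p.Prime] (Γ : FormalGroup (ZMod p)) : Prop :=
  ∀ l : ℕ, l.Prime → l ≠ p → ∀ ζ : AlgebraicClosure (ZMod p), IsPrimitiveRoot ζ l →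
    sumSeries (Γ.map (algebraMap (ZMod p) (AlgebraicClosure (ZMod p))))
      (fun i => PowerSeries.C (ζ ^ i) * PowerSeries.X) l = 0

/-- `Γ` is the height `n` Honda formal group law over `𝔽_p`. -/
structure IsHonda (p n : ℕ) [Fact p.Prime] (Γ : FormalGroup (ZMod p)) : Prop where
  comm : Γ.IsComm
  typical : IsPTypical p Γ
  pseries : mulSeries Γ p = PowerSeries.X ^ p ^ n

/-- The ring `E₀ = W(k)[[u_1, ..., u_{n-1}]]`; the variable `X i` is `u_{i+1}`. -/
abbrev E0 (p n : ℕ) [Fact p.Prime] (k : Type) [Field k] : Type :=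
  MvPowerSeries (Fin (n - 1)) (WittVector p k)

section LT

variable {p n : ℕ} [Fact p.Prime] {k : Type} [Field k]

/-- The residue map `E₀ → k`. -/
def res : E0 p n k →+* k :=
  WittVector.constantCoeff.comp MvPowerSeries.constantCoeff

/-- The height ideals `I_0 = 0`, `I_h = (p, u_1, ..., u_{h-1})`. -/
def heightIdeal (p n : ℕ) [Fact p.Prime] (k : Type) [Field k] (h : ℕ) : Ideal (E0 p n k) :=
  Ideal.span ({x | 0 < h ∧ x = (p : E0 p n k)} ∪
    {x | ∃ i : Fin (n - 1), (i : ℕ) + 1 < h ∧ x = MvPowerSeries.X i})

/-- `F` over `E₀` is a universal deformation of the formal group law `Γ` over `k`: for every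
complete Noetherian local `W(k)`-algebra `R` with a residue map `ρ : R → k` and every commutative
deformation `G` of `Γ` to `R` there is a unique local `W(k)`-algebra map `φ : E₀ → R` such that
`φ_* F` is star-isomorphic to `G`. -/
structure IsUniversal (Γ : FormalGroup k) (F : FormalGroup (E0 p n k)) : Prop where
  comm : F.IsComm
  special : F.map res = Γ
  universal : ∀ (R : Type) [CommRing R] [IsLocalRing R] [IsNoetherianRing R]
    [IsAdicComplete (IsLocalRing.maximalIdeal R) R] [Algebra (WittVector p k) R] (ρ : R →+* k),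
    ρ.comp (algebraMap (WittVector p k) R) = WittVector.constantCoeff →
    ∀ G : FormalGroup R, G.IsComm → G.map ρ = Γ →
      ∃! φ : E0 p n k →ₐ[WittVector p k] R, ρ.comp φ.toRingHom = res ∧
        ∃ s : PowerSeries R, IsIso (F.map φ.toRingHom) G s ∧
          PowerSeries.map ρ s = PowerSeries.X

/-- The coordinates `u_i` are height coordinates for `F`: `I_h` cuts out the locus of height
at least `h`, i.e. `I_h` is generated by the coefficients of `x^j`, `j < p^h`, in `[p]_F(x)`. -/
def HeightCoords (F : FormalGroup (E0 p n k)) : Prop :=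
  ∀ h : ℕ, 1 ≤ h → h ≤ n →
    Ideal.span {x | ∃ j < p ^ h, x = PowerSeries.coeff j (mulSeries F p)} = heightIdeal p n k h

/-- `σ` is the automorphism of `E₀` given by an element of the extended Morava stabilizer group
`G_n`: it acts on the coefficients `W(k)` through a Galois automorphism `τ` of `k`, and `σ_* F` is
isomorphic to `F` (the reduction of the isomorphism is the change of marking). -/
def InStab (F : FormalGroup (E0 p n k)) (σ : E0 p n k ≃+* E0 p n k) : Prop :=
  (∃ τ : k ≃+* k, ∀ a : WittVector p k,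
    σ (MvPowerSeries.C a) = MvPowerSeries.C (WittVector.map τ.toRingHom a)) ∧
  ∃ w : PowerSeries (E0 p n k), IsIso F (F.map σ.toRingHom) w

/-- `G_n`-invariant ideals of `E₀`. -/
def Invariant (F : FormalGroup (E0 p n k)) (I : Ideal (E0 p n k)) : Prop :=
  ∀ σ : E0 p n k ≃+* E0 p n k, InStab F σ → I.map σ.toRingHom = I

end LT

end Vale.Agent.P217
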